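import Vale.Agent.P088.R2.H165.NF.J
import Vale.Agent.P088.R2.H844.E.Reg
import Vale.Agent.P088.R2.H912.A.Sup
import Vale.Agent.P088.R2.H509.EP.DW

/-!
# P088, stage 3, EST': the payments between the zones `z0` and `A1` (the layer `r`)

`payEW_z0_A1`: `A1` pays the cost of `z0`. `payF_A1_z0`: `z0` pays the cost of `A1` where
`tinf ≤ 0`; hypothesis `RowD`: the derivatives of the cut-off of `A1` are bounded there.
-/

open Set Filter
open scoped Topology ContDiff Matrix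

noncomputable section

namespace Vale.Agent.P088.R2.H920.E

open Vale.Agent.P088.LR Vale.Agent.P088.HY Vale.Agent.P088.R2.H961.GW
open Vale.Agent.P088.R2.H31.EP Vale.Agent.P088.R2.H551.E
open Vale.Agent.P088.R2.H455.E
open Vale.Agent.P088.R2.H867.EP (Cut Zo path sd Near Off)
open Vale.Agent.P088.R2.H867.Z (sq1 sqp sq1_nn)
open Vale.Agent.P088.R2.H747.A (GG mA Wx2 Wy2)
open Vale.Agent.P088.R2.H165.NF
open Vale.Agent.P088.R2.H558.G (PayEW RowPayW)
open Vale.Agent.P088.R2.H844.E (PayF)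

variable {n : ℕ} {q : Cst} {d : Pk n} {z : VV n} {L : Lc n}

/-! ## The numbers -/

theorem num_ζ {C e x y Z B m a : ℝ} (hC : 0 ≤ C) (he : 0 ≤ e) (hx : 0 ≤ x)
    (hy : y ≤ x) (hZ0 : 0 ≤ Z) (hZ : Z ≤ B) (hm : a * x ≤ m) (h : 34 * C * e * B ≤ a) :
    34 * (C * (e * (y * Z))) ≤ m := by
  have h1 : y * Z ≤ x * B := mul_le_mul hy hZ hZ0 hx
  calc 34 * (C * (e * (y * Z))) ≤ 34 * (C * (e * (x * B))) := by gcongr
    _ = 34 * C * e * B * x := by ring
    _ ≤ a * x := mul_le_mul_of_nonneg_right h hx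
    _ ≤ m := hm

theorem num_w {C e x y Z B m a K N E F f c : ℝ} (hC : 0 ≤ C) (he : 0 < e) (hE : 0 ≤ E)
    (hEx : E ≤ x) (hy : y ≤ x) (hZ0 : 0 ≤ Z) (hZ : Z ≤ B) (hm : a * x ≤ m) (ha : 0 ≤ a)
    (hf : 0 ≤ f) (hc : 0 ≤ c) (hK : K ≤ c * (N * E)) (hN : 1 ≤ N) (hF : f * N ^ 2 ≤ F)
    (h1 : 204 * C * e * B ≤ a * f) (h2 : 204 * C * B * (c + 1) ≤ e * (a * f) * N) :
    34 * (C * ((1 / e * (K + x) + e * N ^ 2 * y) * Z)) ≤ 1 / 3 * (m * F) := by
  have hx : 0 ≤ x := hE.trans hEx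
  have hB := hZ0.trans hZ
  have hN0 : 0 ≤ N := by linarith
  have k0 : N * E ≤ N * x := mul_le_mul_of_nonneg_left hEx hN0
  have k1 : K + x ≤ (c + 1) * (N * x) := by
    have a1 := mul_le_mul_of_nonneg_left k0 hc
    have a2 : x ≤ N * x := le_mul_of_one_le_left hx hN
    linarith
  have k2 : 1 / e * (K + x) + e * N ^ 2 * y ≤ 1 / e * ((c + 1) * (N * x)) + e * N ^ 2 * x :=
    add_le_add (mul_le_mul_of_nonneg_left k1 (by positivity))
      (mul_le_mul_of_nonneg_left hy (by positivity))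
  have k3 : (1 / e * (K + x) + e * N ^ 2 * y) * Z ≤
      (1 / e * ((c + 1) * (N * x)) + e * N ^ 2 * x) * B := mul_le_mul k2 hZ hZ0 (by positivity)
  have k4 : 34 * (C * (1 / e * ((c + 1) * (N * x)) * B)) ≤ 1 / 6 * (a * x * (f * N ^ 2)) := by
    have a1 : 1 / e * (204 * C * B * (c + 1)) ≤ a * f * N := by
      rw [one_div, inv_mul_le_iff₀ he]
      linarith
    have a2 := mul_le_mul_of_nonneg_right a1 (mul_nonneg hN0 hx)
    linarith
  have k5 : 34 * (C * (e * N ^ 2 * x * B)) ≤ 1 / 6 * (a * x * (f * N ^ 2)) := by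
    have a2 := mul_le_mul_of_nonneg_right h1 (mul_nonneg (sq_nonneg N) hx)
    linarith
  have m0 : 0 ≤ m := (mul_nonneg ha hx).trans hm
  have k6 : a * x * (f * N ^ 2) ≤ m * F := mul_le_mul hm hF (by positivity) m0
  have k7 := mul_le_mul_of_nonneg_left (mul_le_mul_of_nonneg_left k3 hC)
    (by norm_num : (0 : ℝ) ≤ 34)
  linarith

/-! ## Small parameters, large `M₀` -/

open Classical in
/-- A positive function from a function which is positive for suitable constants. -/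
def ps (v : Cst → ℝ) (q : Cst) : ℝ := if 0 < v q then v q else 1

theorem ps_sm {v : Cst → ℝ} (h : NB_c' v) : SmE (ps v) := by
  refine ⟨fun q => ?_, fun q => ?_⟩
  · unfold ps
    rw [h q]
  · unfold ps
    split_ifs with h1
    · exact h1
    · exact one_pos

theorem ps_eq {v : Cst → ℝ} (h : 0 < v q) : ps v q = v q := if_pos h

theorem ev_M {f : Cst → ℝ} (hf : NB_c' f) : EvC fun q => f q ≤ q.M₀ := by
  have h := EvC.at_M₀ (fun q t => f q ≤ t) fun q => eventually_ge_atTop _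
  refine h.mono fun q hq => ?_
  have e : f q.b_M₀ = f q := by
    rw [← hf q.b_M₀, ← hf q]
    rfl
  rwa [e] at hq

/-! ## `A1` pays `z0` -/

/-- The small parameter. -/
def v1 (L : Lc n) (q : Cst) : ℝ := aM L q * min 1 (aF q) / (204 * (L.C0 q * Bz n q))

theorem v1_nb (hL : L.Ok) : NB_c' (v1 L) := fun q => by
  unfold v1 aM
  rw [hL.C0.2 q, hL.μA.2 q]
  rfl

theorem v1_pos (hL : L.Ok) (hq : NC n q) : 0 < v1 L q := by
  have h1 := aM_pos hL hq
  have h2 : 0 < min 1 (aF q) := lt_min one_pos (aF_pos hq)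
  have h3 := hL.C0.1 q
  have h4 : 0 < Bz n q := by linarith [Bz_one n q]
  unfold v1
  positivity

/-- The threshold for `M₀`. -/
def w1 (L : Lc n) (e : Cst → ℝ) (q : Cst) : ℝ :=
  204 * L.C0 q * Bz n q * (q.ph.Cb + 3 + 1) / (e q * (aM L q * aF q))

theorem w1_nb (hL : L.Ok) {e : Cst → ℝ} (he : NB_c' e) : NB_c' (w1 L e) := fun q => by
  unfold w1 aM
  rw [hL.C0.2 q, hL.μA.2 q, he q]
  rfl

/-- `u ≤ uta`. -/
theorem u_le (hq : NC n q) (h : PkOk q d) (h1 : d.ch q .A1 z ≠ 0) : d.u q z ≤ d.uta q := by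
  have h2 := (H509.DW.off_reg hq.gt h (hq.nr.sm d h)
    (Or.inr (Or.inr (Or.inl rfl))) h1).2
  have h3 := (abs_le.1 (H509.TG.u_close h z)).2
  linarith

theorem offA : Off .A1 := by unfold Off; decide

theorem nearZ : Near .z0 := by unfold Near; decide

/-- **`A1` pays the cost of `z0`.** -/
theorem payEW_z0_A1 (hL : L.Ok) : PayEW L .z0 .A1 := by
  refine ⟨ps (v1 L), ps_sm (v1_nb hL), fun e he hle => ?_⟩
  refine (((evNC n).and (H912.A.rowWX n)).and (ev_M (w1_nb hL he.1))).mono ?_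
  rintro q ⟨⟨hq, hX⟩, hM⟩ d h z hk hj a b
  have ly := ly_of hq h nearZ offA hk hj
  have P := pt_of hL hq h ly (hX d h .A1 (by simp) z hj)
  have e0 := he.2 q
  have e1 : e q ≤ v1 L q := by
    have := hle q
    rwa [ps_eq (v1_pos hL hq)] at this
  have ha := aM_pos hL hq
  have hF := aF_pos hq
  have hC := hL.C0.1 q
  have hB := Bz_one n q
  have hB0 : 0 < Bz n q := by linarith
  have hN1 : 1 ≤ d.N q z := hq.nr.M1.trans P.N1
  have hE := P.E0
  have hCb := hq.gt.wc.Cb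
  set x := d.E q z + sg L q * d.N q z with hx
  have x0 : 0 < x := hE.trans_le P.Ex
  have y1 : x / (1 + x) ≤ x := by
    rw [div_le_iff₀ (by linarith)]
    nlinarith
  have k0 : e q * (204 * (L.C0 q * Bz n q)) ≤ aM L q * min 1 (aF q) := by
    unfold v1 at e1
    rwa [le_div_iff₀ (by positivity)] at e1
  have k1 : 34 * L.C0 q * e q * Bz n q ≤ aM L q := by
    have a1 : aM L q * min 1 (aF q) ≤ aM L q * 1 :=
      mul_le_mul_of_nonneg_left (min_le_left _ _) ha.le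
    have a2 : 0 < e q * (L.C0 q * Bz n q) := by positivity
    linarith
  have k2 : 204 * L.C0 q * e q * Bz n q ≤ aM L q * aF q := by
    have a1 : aM L q * min 1 (aF q) ≤ aM L q * aF q :=
      mul_le_mul_of_nonneg_left (min_le_right _ _) ha.le
    linarith
  have k3 : 204 * L.C0 q * Bz n q * (q.ph.Cb + 3 + 1) ≤ e q * (aM L q * aF q) * d.N q z := by
    unfold w1 at hM
    rw [div_le_iff₀ (by positivity)] at hM
    have a1 := mul_le_mul_of_nonneg_left P.N1 (by positivity : 0 ≤ e q * (aM L q * aF q))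
    linarith
  have K1 := K_le hq h (u_le hq h hj)
  have F1 : aF q * d.N q z ^ 2 ≤ d.sx.F (d.W q) z := by
    refine le_trans (mul_le_mul_of_nonneg_left ?_ hF.le) P.f1
    nlinarith
  have F2 : aF q * d.N q z ^ 2 ≤ d.sy.F (d.W q) z := by
    refine le_trans (mul_le_mul_of_nonneg_left ?_ hF.le) P.f2
    nlinarith
  have hκ : L.kA q ≤ 1 := by linarith [(hL.kA.1 q).2]
  refine H165.PR.pay_c0_MA hκ ?_ ?_ ?_
  · exact num_ζ hC.le e0.le x0.le y1 (sq1_nn _ _) P.c1 P.m1 k1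
  · exact num_w hC.le e0 hE.le P.Ex y1 (sq1_nn _ _) P.c1 P.m1 ha.le hF.le (by linarith) K1 hN1 F1
      k2 k3
  · exact num_w hC.le e0 hE.le P.Ex y1 (sq1_nn _ _) P.c1 P.m1 ha.le hF.le (by linarith) K1 hN1 F2
      k2 k3

/-! ## `z0` pays `A1` -/

/-- `m_A ≤ Λ μ`. -/
def Lam (L : Lc n) (q : Cst) : ℝ := AM L q / L.c0 q

/-- `|D W|² ≤ D N²`. -/
def DD (n : ℕ) (q : Cst) : ℝ := Wc n * (1 + 2 / q.aC) ^ 2

/-- The small parameter. -/
def v2 (L : Lc n) (B : Cst → ℝ) (q : Cst) : ℝ :=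
  1 / (34 * 144 * (Lam L q * Ba n B q * (1 + DD n q)))

theorem v2_nb (hL : L.Ok) {B : Cst → ℝ} (hB : NB_c' B) : NB_c' (v2 L B) := fun q => by
  unfold v2 Lam AM
  rw [hL.c0.2 q, hL.μA.2 q, hL.cs.2 q, Ba_nb hB q]
  rfl

/-- The threshold for `M₀`. -/
def w2 (L : Lc n) (B e : Cst → ℝ) (q : Cst) : ℝ := 34 * 12 * (Lam L q * Ba n B q) / e q

theorem w2_nb (hL : L.Ok) {B e : Cst → ℝ} (hB : NB_c' B) (he : NB_c' e) :
    NB_c' (w2 L B e) := fun q => by
  unfold w2 Lam AM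
  rw [hL.c0.2 q, hL.μA.2 q, hL.cs.2 q, Ba_nb hB q, he q]

/-- **`z0` pays the cost of `A1`**, `tinf ≤ 0`. -/
theorem payF_A1_z0 (hL : L.Ok) (hD : RowD n) : PayF L .A1 .z0 := by
  obtain ⟨B, hB, hD⟩ := hD
  have hDD : ∀ q, 0 ≤ DD n q := fun q => mul_nonneg (Wc_nn n) (sq_nonneg _)
  have hBA : ∀ q, 0 < Ba n B q := fun q => by linarith [Ba_one n B q]
  have hLam : ∀ q, 0 < Lam L q := fun q => div_pos (AM_pos hL q) (hL.c0.1 q)
  have hv : ∀ q, 0 < v2 L B q := fun q => by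
    have h1 := hLam q
    have h2 := hBA q
    have h3 := hDD q
    unfold v2
    positivity
  refine ⟨v2 L B, ⟨v2_nb hL hB, hv⟩, fun e he hle => ?_⟩
  refine (((evNC n).and (H912.A.rowWX n)).and (hD.and (ev_M (w2_nb hL hB he.1)))).mono ?_
  rintro q ⟨⟨hq, hX⟩, hD, hM⟩ d h z hi hk hj a b
  have ly := ly_of hq h nearZ offA hj hk
  have P := pt_of hL hq h ly (hX d h .A1 (by simp) z hk)
  have e0 := he.2 q
  have e1 := hle q
  have hL0 := hLam q
  have hb := hBA q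
  have hd := hDD q
  have hN1 : 1 ≤ d.N q z := hq.nr.M1.trans P.N1
  have hN0 : 0 < d.N q z := by linarith
  have hE := P.E0
  have haC := hq.aC
  have hc0 := hL.c0.1 q
  have hAM := AM_pos hL q
  set x := d.E q z + sg L q * d.N q z with hx
  have x0 : 0 < x := hE.trans_le P.Ex
  have k0 : e q * (34 * 144 * (Lam L q * Ba n B q * (1 + DD n q))) ≤ 1 := by
    unfold v2 at e1
    rwa [le_div_iff₀ (by positivity)] at e1
  have p1 : 0 ≤ e q * (Lam L q * Ba n B q) := by positivity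
  have p2 : 0 ≤ e q * (Lam L q * Ba n B q * DD n q) := by positivity
  have hMM : q.M₀ ≤ q.M₀ ^ 2 := by
    have := hq.nr.M1
    nlinarith
  have nu : H808.PF.Nu 34 (e q) (Lam L q) (Ba n B q) (DD n q) (q.M₀ ^ 2) := by
    refine ⟨by norm_num, e0, hL0, hb.le, hd, ?_, ?_, ?_, ?_⟩
    · have := hq.nr.M1
      positivity
    · linarith
    · unfold w2 at hM
      have e2 : 34 * (6 * Lam L q * Ba n B q / e q) =
          1 / 2 * (34 * 12 * (Lam L q * Ba n B q) / e q) := by ring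
      rw [e2]
      linarith
    · linarith
  have cb := cb_of hq h (hD d h z hi hk)
  -- the derivatives of the weight
  have kE : d.E q z ≤ 2 / q.aC * d.N q z := by
    have := sd_z0 hj (hq.nr.sm d h).cp haC hN0
    rw [div_mul_eq_mul_div, le_div_iff₀ haC]
    linarith
  have kS : (d.N q z + d.E q z) ^ 2 ≤ (1 + 2 / q.aC) ^ 2 * d.N q z ^ 2 := by
    rw [← mul_pow]
    refine pow_le_pow_left₀ (by positivity) ?_ 2
    linarith
  have kW : Wc n * (d.N q z + d.E q z) ^ 2 ≤ DD n q * d.N q z ^ 2 := by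
    have := mul_le_mul_of_nonneg_left kS (Wc_nn n)
    unfold DD
    linarith
  have m0 : 0 ≤ mA L.μA q d z := by
    refine le_trans ?_ P.m1
    have := aM_pos hL hq
    positivity
  have hΛ : mA L.μA q d z ≤ Lam L q * (L.c0 q * x) := by
    have e2 : Lam L q * (L.c0 q * x) = AM L q * x := by
      unfold Lam
      field_simp
    rw [e2]
    exact P.m2
  have hX2 : q.M₀ ^ 2 ≤ d.N q z ^ 2 :=
    pow_le_pow_left₀ (by linarith [hq.nr.M1]) P.N1 2
  exact H808.PF.pay_coA nu m0 hΛ ⟨cb.d₁, cb.g₁, P.w1.trans kW⟩ ⟨cb.d₂, cb.g₂, P.w2.trans kW⟩ hX2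
    hX2 (H165.PR.pays_M0 hc0.le hE.le)

end Vale.Agent.P088.R2.H920.E
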