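import Vale.Agent.P088.R2.H912.A.Sup
import Vale.Agent.P088.R2.H710.EP.DC
import Vale.Agent.P088.R2.H165.NF.J
import Vale.Agent.P088.R2.H920.E.Z0A

/-!
# P088, stage 3, EST': the gradient of `u` in zone A, the cut-offs of `A1`, `A2`

`du`: `|D_i u| ≤ 13/10` in both slots on `OmB`. `chA_all`: the first derivatives of the cut-offs of
`A1`, `A2` where `tinf ≤ 0`. `rowD`: helper165's row `RowD`.
-/

open Set Filter
open scoped ContDiff Topology

noncomputable section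

namespace Vale.Agent.P088.R2.H920.E

open Vale.Agent.P088.LR Vale.Agent.P088.R2.H464.Cu Vale.Agent.P088.R2.H230.W
open Vale.Agent.P088.HY hiding dd
open Vale.Agent.P088.R2.H31.EP hiding r2
open Vale.Agent.P088.R2.H31.EP (r2)
open Vale.Agent.P088.R2.H867.EP (Zo Off)
open Vale.Agent.P088.R2.H912.A
open Vale.Agent.P088.R2.H932.EP (cSt)

variable {n : ℕ} {e : Fin n → VV n} {s : ℝ} {pt : VV n → V n} {z : VV n} {q : Cst} {d : Pk n}

/-- `|D u| ≤ 13/10` in one slot. -/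
theorem ux_le (D : Dir e s pt) (T : Tw n q) (h : PkOk q d) (O : OB q d z)
    (hpt : pt z = z.1 ∨ pt z = z.2) : nn (Dv e (d.u q) z) ≤ 13 / 10 := by
  have hg := h.gi_sm T.ε2
  have hR := T.I.R0
  have P := pt_ok D T h O
  have hσ1 := T.T.σ1
  have hl : ∀ x : V n, d.l x ≤ d.l₀ q + 3 * q.R → nn (fun i => pd i d.l x) ≤ 1001 / 1000 :=
    fun x hx => (nn_grad_le T.I h hx).trans (by linarith)
  have b1 : nn (fun i => pd i d.l (pt z)) ≤ 1001 / 1000 := by
    rcases hpt with h1 | h1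
    · rw [h1]; exact hl _ (by linarith [O.l1])
    · rw [h1]; exact hl _ (by linarith [O.l2])
  by_cases hi : Ina q d z
  · rw [ux_ina D h hg hi]
    linarith
  have r4 : d.r2 z ≤ 4 := by
    by_contra hc
    exact hi (Or.inl (chi_hi h (not_le.1 hc)))
  have r2' : rr d z ≤ 2 := by
    refine le_of_sq_le_sq ?_ (by norm_num)
    rw [rr_sq P.r0]
    linarith
  have s2 : d.l (mid z) ≤ d.l₀ q + q.R := by
    by_contra hc
    exact hi (Or.inr (muc_hi hR (not_le.1 hc)))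
  have t0 := tq_nonneg T
  have t1 := T.t1
  rw [u_vec D h hg]
  refine (nn_add_le _ _).trans ?_
  have b2 : nn ((2 * deriv d.χ (d.r2 z) * d.μc q (d.l (mid z))) • Dv e d.r2 z) ≤ 1 / 20 := by
    rw [nn_smul]
    have c1 : nn (Dv e d.r2 z) ≤ 5 := by
      have c2 := P.b2
      have c3 : 0 < √(d.r2 z) := rr_pos P.r0
      rw [nn_smul, abs_of_pos (by positivity), inv_mul_le_iff₀ (by positivity)] at c2
      have c4 : √(d.r2 z) ≤ 2 := r2'
      have c5 : 2 * √(d.r2 z) * (1 + 3 * tq n q) ≤ 2 * 2 * (5 / 4) := by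
        refine mul_le_mul (by linarith) (by linarith) (by linarith) (by norm_num)
      linarith
    have c2 : |2 * deriv d.χ (d.r2 z) * d.μc q (d.l (mid z))| ≤ 1 / 100 := by
      rw [abs_mul, abs_mul, abs_of_pos (by norm_num : (0 : ℝ) < 2)]
      have d1 := chi_d h (d.r2 z)
      have d2 := (d.μc_abs q (d.l (mid z))).trans (h.ph.isμ.bd _)
      have d3 := H932.EP.cSt_one
      have d4 : 2 * |deriv d.χ (d.r2 z)| ≤ 2 * (cSt / 3) := by linarith
      calc _ ≤ 2 * (cSt / 3) * (6 * 1 * Real.log q.M₀ ^ (-(1 / 2) : ℝ)) :=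
            mul_le_mul d4 d2 (abs_nonneg _) (by linarith)
        _ ≤ _ := by linarith [T.mu]
    calc _ ≤ 1 / 100 * 5 := mul_le_mul c2 c1 (nn_nonneg _) (by norm_num)
      _ = _ := by norm_num
  have b3 : nn ((d.χ (d.r2 z) * deriv (d.μc q) (d.l (mid z))) • fun i => pd i d.l (mid z)) ≤
      2 / 10 := by
    rw [nn_smul, abs_mul]
    have d1 : |d.χ (d.r2 z)| ≤ 1 := by
      have := h.χb (d.r2 z)
      rw [abs_of_nonneg this.1]
      exact this.2
    have d2 : |deriv (d.μc q) (d.l (mid z))| ≤ 3 / 20 := by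
      refine (muc_d h hR _).trans ?_
      have : cSt / (4 * q.R) ≤ 1 / 40 := by
        rw [div_le_iff₀ (by positivity)]
        linarith [T.R1]
      linarith
    have d3 := hl (mid z) (by linarith)
    calc _ ≤ 1 * (3 / 20) * (1001 / 1000) :=
          mul_le_mul (mul_le_mul d1 d2 (abs_nonneg _) (by norm_num)) d3 (nn_nonneg _)
            (by norm_num)
      _ ≤ _ := by norm_num
  have b4 := nn_add_le ((2 * deriv d.χ (d.r2 z) * d.μc q (d.l (mid z))) • Dv e d.r2 z)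
    ((d.χ (d.r2 z) * deriv (d.μc q) (d.l (mid z))) • fun i => pd i d.l (mid z))
  linarith

/-- A component. -/
theorem abs_le_nn (v : Fin n → ℝ) (i : Fin n) : |v i| ≤ nn v := by
  refine abs_le_of_sq_le_sq ?_ (nn_nonneg _)
  rw [nn_sq]
  unfold dd
  have := Finset.single_le_sum (f := fun i => v i * v i) (fun j _ => mul_self_nonneg _)
    (Finset.mem_univ i)
  rw [pow_two]
  exact this

/-- **The gradient of `u` in zone A.** -/
theorem du (n : ℕ) : EvC fun q => ∀ d : Pk n, PkOk q d → ∀ z ∈ H747.A.OmB q d,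
    nn (Dv ex (d.u q) z) ≤ 13 / 10 ∧ nn (Dv ey (d.u q) z) ≤ 13 / 10 ∧
      ∀ i, |dx i (d.u q) z| ≤ 13 / 10 ∧ |dy i (d.u q) z| ≤ 13 / 10 := by
  refine (evTw n).mono fun q T d h z hz => ?_
  have O := ob_of hz
  have h1 := ux_le dirX T h O (Or.inl rfl)
  have h2 := ux_le dirY T h O (Or.inr rfl)
  exact ⟨h1, h2, fun i => ⟨(abs_le_nn (Dv ex (d.u q) z) i).trans h1,
    (abs_le_nn (Dv ey (d.u q) z) i).trans h2⟩⟩

/-- **The first derivatives of the cut-offs of `A1`, `A2`** where `tinf ≤ 0`. -/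
theorem chA_all (hn : 1 ≤ n) : ∃ B : Cst → ℝ, NB_c' B ∧ (∀ q, 0 ≤ B q) ∧ EvC fun q =>
    ∀ d : Pk n, PkOk q d → ∀ z, d.tinf q z ≤ 0 → ∀ k : Zo, (k = .A1 ∨ k = .A2) →
      d.ch q k z ≠ 0 → ∀ i, |dx i (d.ch q k) z| ≤ B q ∧ |dy i (d.ch q k) z| ≤ B q := by
  obtain ⟨B, hB, hB0, H⟩ := H710.DC.chA hn
  refine ⟨B, hB, hB0, ((H.and (du n)).and (H281.A.supp_OmB n)).mono ?_⟩
  rintro q ⟨⟨H, hu⟩, hO⟩ d h z ht k hk ha i
  have hoff : Off k := by
    unfold Off
    rcases hk with rfl | rfl <;> decide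
  have hz := hO d h k hoff (subset_tsupport _ ha)
  obtain ⟨-, -, h3⟩ := hu d h z hz
  obtain ⟨h4, h5⟩ := h3 i
  have n1 : ‖((Pi.single i 1, 0) : VV n)‖ ≤ 1 := H710.DC.norm_ex (Sum.inl i)
  have n2 : ‖((0, Pi.single i 1) : VV n)‖ ≤ 1 := H710.DC.norm_ex (Sum.inr i)
  exact ⟨H d h z ht k hk ha _ n1 (h4.trans (by norm_num)),
    H d h z ht k hk ha _ n2 (h5.trans (by norm_num))⟩

/-- **Row D-CH for `A1`.** -/
theorem rowD (hn : 1 ≤ n) : H165.NF.RowD n := by
  obtain ⟨B, hB, hB0, H⟩ := chA_all hn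
  refine ⟨fun q => B q ^ 2, fun q => by simp only [hB q], H.mono fun q H d h z ht ha i => ?_⟩
  obtain ⟨h1, h2⟩ := H d h z ht .A1 (Or.inl rfl) ha i
  have e1 := pow_le_pow_left₀ (abs_nonneg _) h1 2
  have e2 := pow_le_pow_left₀ (abs_nonneg _) h2 2
  rw [sq_abs] at e1 e2
  exact ⟨e1, e2⟩

/-- **`z0` pays the cost of `A1`**, closed. -/
theorem pay_A1_z0 (hn : 1 ≤ n) {L : H455.E.Lc n} (hL : L.Ok) : H844.E.PayF L .A1 .z0 :=
  payF_A1_z0 hL (rowD hn)

end Vale.Agent.P088.R2.H920.E
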